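import Crest.Agent.X262.Prd86.Abs
import Crest.Agent.X262.Prd86.Pj

/-!
# Row 262, road B, PROD (helper86), part 3: the virtual number of a product

* `sm_one`    : a sum over a pulled back divisor with a class from the second factor;
* `vir_prod`  : product of two configurations which do not lie on their targets;
* `vir_prod0` : the second target is the whole ambient space.
-/

set_option autoImplicit false
set_option linter.unusedSectionVars false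

noncomputable section

namespace Crest.Agent.X262.Prd

open Crest.Agent.X277 Crest.Agent.X277.BD Crest.Agent.X277.Pst Crest.Agent.X277.BD.Cyc
open Crest.Agent.X262.Geo Crest.Agent.X262.Hb Crest.Agent.X262.Wd Crest.Agent.X262.Vb
open Crest.Agent.X262.Sym65 (PF PX Liv LivX Sup sm cf i1 qv mem_sup)
open Crest.Agent.X262.End66 (sum)
open Crest.Agent.R274.Prod1_134 (IsPF)

variable {K₁ K₂ L E : Type} [Field K₁] [Algebra ℂ K₁] [Field K₂] [Algebra ℂ K₂] [Field L]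
  [Algebra ℂ L] [Field E] [Algebra ℂ E] {B : Th} {α : K₁ →ₐ[ℂ] L} {β : K₂ →ₐ[ℂ] L}
  [Algebra.EssFiniteType ℂ K₁] [Algebra.EssFiniteType ℂ K₂] [Algebra.EssFiniteType ℂ L]

/-- a class from the second factor -/
theorem sm_one (hB : B.Ax) (h : IsPF α β) {D : BD ℂ K₁} {φ : PF B K₁} (hφ : Liv B (Sup D) φ)
    (x : B.H K₂) : sm (pb α D) (i1 (φ.on (LP.hom α) *
      Sym65.PF.on (fun _ _ _ p => B.pb p x) (LP.hom β))) = sm D (i1 φ) * B.itg K₂ x := by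
  rw [mul_comm (sm D _), ← Sym65.sm_mul]
  refine sm_gx h (fun W hW h1 h2 => ?_) fun W hW hW' h1 h2 => ?_
  · obtain ⟨F, h3, h4, h5⟩ := (gx_or h hW (ne_top_of_sup h1)).resolve_left h2
    have := essFT_Rf hW
    exact ((spl_left (β := β) hφ _ (LP.at W) F (by rwa [← sup_pb, mem_sup_pb]) h4 h5).mul
      (spl_right (α := α) (Liv.glob (Z := Set.univ) hB x) _ (LP.at W) F trivial h4 h5)).itg hB h3
  · have := essFT_Rf hW
    have := essFT_Rf hW'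
    change B.itg _ (φ _ ((LP.hom α).comp (LP.at W)) * B.pb ((LP.hom β).comp (LP.at W)) x) = _
    rw [hom_at, hom_at' β W h2.mem, hφ.nat _ _ (LP.at (dn α W)) _ h1,
      hB.fub _ _ (prd_of_pf (h2.isPF h)), mul_comm]
    rfl

variable {J : Type} [Fintype J] [DecidableEq J] {io : J → Type} [∀ j, Fintype (io j)]
  [∀ j, DecidableEq (io j)]
variable {J₁ : Type} [Fintype J₁] [DecidableEq J₁] {io₁ : J₁ → Type} [∀ j, Fintype (io₁ j)]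
  [∀ j, DecidableEq (io₁ j)]
variable {J₂ : Type} [Fintype J₂] [DecidableEq J₂] {io₂ : J₂ → Type} [∀ j, Fintype (io₂ j)]
  [∀ j, DecidableEq (io₂ j)]
variable {A₁ A₂ I M : Type} [Fintype A₁] [Fintype A₂] [Fintype I]
  {π₁ : Pj io₁ io} {π₂ : Pj io₂ io} {T₁ : Tgt io₁ A₁} {T₂ : Tgt io₂ A₂}
  {z : Cfg io I L} {z₁ : Cfg io₁ I K₁} {z₂ : Cfg io₂ I K₂} {Φ₁ : MFam B io₁ M} {Φ₂ : MFam B io₂ M}

theorem geq_red (e : Cfg.Geq (z₁.map α) (π₁.cfg z)) (hz : z₁.NZ) (p : LP L E) :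
    Cfg.Geq (z₁.red ((LP.hom α).comp p).toPl) (π₁.cfg (z.red p.toPl)) := by
  rw [π₁.cfg_red]
  exact (Cfg.red_map α p hz).trans (e.red (hz.map α) _)

theorem dv_side (e : Cfg.Geq (z₁.map α) (π₁.cfg z)) (hz : z₁.NZ) :
    z.dv (π₁.tgt T₁) = pb α (z₁.dv T₁) := by
  rw [π₁.dv_tgt, e.dv T₁ (hz.map α), Cfg.dv_map]

theorem on_side (e : Cfg.Geq (z₁.map α) (π₁.cfg z)) : z.On (π₁.tgt T₁) ↔ z₁.On T₁ := by
  rw [π₁.cfg_on, e.on, Cfg.on_map]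

theorem cp_side (hB : B.Ax) [Algebra.EssFiniteType ℂ E] (e : Cfg.Geq (z₁.map α) (π₁.cfg z))
    (hz : z₁.NZ) (p : LP L E) :
    cpz B T₁ (π₁.cfg (z.red p.toPl)) = (cpF B T₁ z₁).on (LP.hom α) E p :=
  cpz_geq hB (geq_red e hz p) (hz.red _)

theorem ev_side [Algebra.EssFiniteType ℂ E] (hΦ : MCls B T₁ Φ₁)
    (e : Cfg.Geq (z₁.map α) (π₁.cfg z)) (hz : z₁.NZ) (m : M → I) {p : LP L E}
    (hp : (z₁.red ((LP.hom α).comp p).toPl).On T₁) :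
    evF z m (π₁.fam Φ₁) E p = (evF z₁ m Φ₁).on (LP.hom α) E p :=
  hΦ.geq (m := m) (geq_red e hz p) (hz.red _) hp

theorem on_of_sup (hz : z₁.NZ) {p : LP L E} (hp : p.V ∈ Sup (pb α (z₁.dv T₁))) :
    (z₁.red ((LP.hom α).comp p).toPl).On T₁ :=
  (mem_Zon hz).1 (sup_sub hz (by rwa [sup_pb] at hp))

/-- **the virtual number of a product** -/
theorem vir_prod (hB : B.Ax) (h : Sp π₁ π₂) (hp : IsPF α β)
    (e₁ : Cfg.Geq (z₁.map α) (π₁.cfg z)) (e₂ : Cfg.Geq (z₂.map β) (π₂.cfg z)) (r₁ : Rk T₁ z₁)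
    (r₂ : Rk T₂ z₂) (n₁ : ¬ z₁.On T₁) (n₂ : ¬ z₂.On T₂) (hΦ₁ : MCls B T₁ Φ₁) (hΦ₂ : MCls B T₂ Φ₂)
    (m : M → I) : vir B (sum (π₁.tgt T₁) (π₂.tgt T₂)) z m (π₁.fam Φ₁ * π₂.fam Φ₂) =
      vir B T₁ z₁ m Φ₁ * vir B T₂ z₂ m Φ₂ := by
  have d₁ := Cfg.dv_nonneg T₁ r₁.nz
  have d₂ := Cfg.dv_nonneg T₂ r₂.nz
  rw [vir_eq_sm, vir_eq_sm, vir_eq_sm, ← sm_prod hB hp d₁ d₂ ((r₁.livX hB).mono (sup_sub r₁.nz))
    ((r₂.livX hB).mono (sup_sub r₂.nz)) (fun E _ _ _ p => r₁.root' hB) (fun E _ _ _ p => r₂.root' hB)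
    ((liv_evF hΦ₁ r₁.nz m).mono (sup_sub r₁.nz)) ((liv_evF hΦ₂ r₂.nz m).mono (sup_sub r₂.nz)),
    dv_sum ((on_side e₁).not.2 n₁) ((on_side e₂).not.2 n₂), dv_side e₁ r₁.nz, dv_side e₂ r₂.nz]
  refine Vb.sm_congr fun W hW h1 => ?_
  have := essFT_Rf hW
  obtain ⟨h2, h3⟩ := (Sym65.sup_inf (pb_nonneg_iff.2 d₁) (pb_nonneg_iff.2 d₂)).le h1
  have h4 := ev_side hΦ₁ e₁ r₁.nz m (on_of_sup (p := LP.at W) r₁.nz h2)
  have h5 := ev_side hΦ₂ e₂ r₂.nz m (on_of_sup (p := LP.at W) r₂.nz h3)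
  have h6 := h.cpz_sum T₁ T₂ hB (z.red (LP.at W).toPl)
  rw [cp_side hB e₁ r₁.nz, cp_side hB e₂ r₂.nz] at h6
  refine congrArg (B.itg (Rf W)) (congrArg₂ (· * ·) ?_ (congrArg₂ (· * ·) h4 h5))
  exact congrArg (fun P : Polynomial (B.H (Rf W)) => (-P.divX).eval _) h6

omit [Algebra.EssFiniteType ℂ K₁] [Algebra.EssFiniteType ℂ K₂] [Algebra.EssFiniteType ℂ L] in
theorem cpz_triv (hB : B.Ax) [Algebra.EssFiniteType ℂ E] (h0 : ∀ a, T₂.F a = 0) (w : Cfg io₂ I E) :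
    cpz B T₂ w = 1 := by
  have h1 : w.Eb T₂ = ⊥ := eq_bot_iff.2 fun σ hσ => funext fun x => by
    obtain ⟨u, hu⟩ := (Node22.mem_Eb.1 hσ).2 x.2
    have h2 := congrFun hu x.1
    rw [Node22.jac_apply, h0] at h2
    simpa using h2.symm
  rw [cpz, h1, hB.cp_bot]

/-- the second target is the ambient space -/
theorem vir_prod0 (hB : B.Ax) (h : Sp π₁ π₂) (hp : IsPF α β)
    (e₁ : Cfg.Geq (z₁.map α) (π₁.cfg z)) (e₂ : Cfg.Geq (z₂.map β) (π₂.cfg z)) (r₁ : Rk T₁ z₁)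
    (r₂ : z₂.NZ) (n₁ : ¬ z₁.On T₁) (h0 : ∀ a, T₂.F a = 0) (hΦ₁ : MCls B T₁ Φ₁)
    (hΦ₂ : MCls B T₂ Φ₂) (m : M → I) :
    vir B (sum (π₁.tgt T₁) (π₂.tgt T₂)) z m (π₁.fam Φ₁ * π₂.fam Φ₂) =
      vir B T₁ z₁ m Φ₁ * B.itg K₂ (Φ₂ K₂ fun q => z₂.y (m q)) := by
  have n₂ : z₂.On T₂ := fun q a => by rw [h0, Vb.pv, map_zero]
  rw [vir_eq_sm, vir_eq_sm, ← sm_one hB hp ((r₁.liv hB hΦ₁ m _).mono (sup_sub r₁.nz)),
    dv_sum_left ((on_side e₁).not.2 n₁) ((on_side e₂).2 n₂), dv_side e₁ r₁.nz]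
  refine Vb.sm_congr fun W hW h1 => ?_
  have := essFT_Rf hW
  have h4 := ev_side hΦ₁ e₁ r₁.nz m (on_of_sup (p := LP.at W) r₁.nz h1)
  have h5 := (ev_side (p := LP.at W) hΦ₂ e₂ r₂ m (n₂.red T₂ (LP.lnr _) r₂)).trans
    (hΦ₂.red (m := m) ((LP.hom β).comp (LP.at W)) r₂ n₂)
  have h6 := h.cpz_sum T₁ T₂ hB (z.red (LP.at W).toPl)
  rw [cp_side hB e₁ r₁.nz, cpz_triv hB h0, mul_one] at h6
  refine congrArg (B.itg (Rf W)) ((congrArg₂ (· * ·) ?_ (congrArg₂ (· * ·) h4 h5)).trans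
    (mul_assoc _ _ _).symm)
  rw [cf_on hB]
  exact congrArg (fun P : Polynomial (B.H (Rf W)) => (-P.divX).eval _) h6

end Crest.Agent.X262.Prd
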